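import Vale.Agent.P196.Span.Zero

/-!
# P196: the mod-2 one-cycles are finite up to boundaries (`Span1`)

A cycle `(f, g)` is carried, up to the boundary of a potential, by the sides of the tiles: `f` by
the last row and `g` by the last column, with the sums over the left column and the bottom row.
-/

namespace Vale.Agent.P196.Sft

namespace MacroSystem

variable (S : MacroSystem)

/-- A cycle. -/
def IsCycle (f g : S.Fun) : Prop := ∀ t, S.dd (1, 0) f t + S.dd (0, 1) g t = 0

/-- The boundaries among pairs. -/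
def bdd₁ : AddSubgroup (S.Fun × S.Fun) where
  carrier := {w | ∃ h, IsLocallyConstant h ∧ ∀ t, w.1 t = S.dd (0, 1) h t ∧ w.2 t = S.dd (1, 0) h t}
  zero_mem' := ⟨0, IsLocallyConstant.const _, fun t => by simp [dd]⟩
  add_mem' := by
    rintro w w' ⟨h, hh, e⟩ ⟨h', hh', e'⟩
    refine ⟨h + h', hh.add hh', fun t => ?_⟩
    simp [dd, e, e']
    constructor <;> ring
  neg_mem' := by
    intro w h
    rwa [show -w = w from Prod.ext (funext fun t => ZMod.neg_eq_self_mod_two (w.1 t))
      (funext fun t => ZMod.neg_eq_self_mod_two (w.2 t))]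

/-- The class of a pair. -/
def cls₁ (f g : S.Fun) : (S.Fun × S.Fun) ⧸ S.bdd₁ := QuotientAddGroup.mk (f, g)

/-- A function of tiles on their last row. -/
noncomputable def spreadY (m : ℕ) (φ : S.Conf m → ZMod 2) : S.Fun := fun t =>
  if S.qy m t = (S.P m : ℤ) - 1 then φ (S.tile m t) else 0

/-- A function of tiles on their last column. -/
noncomputable def spreadX (m : ℕ) (φ : S.Conf m → ZMod 2) : S.Fun := fun t =>
  if S.qx m t = (S.P m : ℤ) - 1 then φ (S.tile m t) else 0

theorem isCycle_add_dd {f g : S.Fun} (h : S.IsCycle f g) (k : S.Fun) :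
    S.IsCycle (fun t => f t + S.dd (0, 1) k t) (fun t => g t + S.dd (1, 0) k t) := by
  intro t
  have e := h t
  have c := S.dd_comm (1, 0) (0, 1) k t
  simp only [dd] at *
  linear_combination e + c + (CharTwo.two_eq_zero (R := ZMod 2)) *
    (k t + k (S.act 0 (0, 1) t) + k (S.act 0 (1, 0) t) + k (S.act 0 (1, 0) (S.act 0 (0, 1) t))) 

/-- A cycle moved to the sides of the tiles. -/
theorem cls₁_sides (m : ℕ) {f g : S.Fun} (hf : IsLocallyConstant f) (hg : IsLocallyConstant g)
    (hc : S.IsCycle f g) :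
    S.cls₁ f g = S.cls₁ (S.spreadY m (S.colSum m f)) (S.spreadX m (S.rowSum m g)) := by
  have bY := S.qy_bounds m
  have bX := S.qx_bounds m
  set h₁ := S.partialSum (S.qy m) (0, 1) f
  set f₁ : S.Fun := fun t => f t + S.dd (0, 1) h₁ t
  set g₁ : S.Fun := fun t => g t + S.dd (1, 0) h₁ t
  have c₁ : S.IsCycle f₁ g₁ := S.isCycle_add_dd hc h₁
  have ef : ∀ t, f₁ t = if S.qy m t = (S.P m : ℤ) - 1 then
      ∑ i ∈ Finset.range (S.P m), f (S.act 0 (((i : ℤ) - S.qy m t) • ((0, 1) : Cell)) t) else 0 :=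
    fun t => S.add_dd_partialSum (0, 1) f t (bY t).1 (bY t).2 (S.qy_act m _ t)
  have eq2 : ∀ a b : ZMod 2, a + b = 0 → b = a := by decide
  have up : ∀ t, S.qy m t < (S.P m : ℤ) - 1 → g₁ (S.act 0 (0, 1) t) = g₁ t := by
    intro t ht
    have h := c₁ t
    have z1 : f₁ t = 0 := by rw [ef, if_neg ht.ne]
    have z2 : f₁ (S.act 0 (1, 0) t) = 0 := by rw [ef, qy_act_horiz, if_neg ht.ne]
    simp only [dd, z1, z2, zero_add] at h
    exact eq2 _ _ h
  have bottom : ∀ t, g₁ t = g (S.act 0 (0, -S.qy m t) t) := by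
    have key : ∀ (j : ℕ) t, S.qy m t = j → g₁ t = g (S.act 0 (0, -(j : ℤ)) t) := by
      intro j
      induction j with
      | zero =>
        intro t ht
        simp [g₁, h₁, dd, partialSum, ht, qy_act_horiz, show ((0, 0) : Cell) = 0 from rfl, act_zero]
      | succ j ih =>
        intro t ht
        have hb := (bY t).2
        push_cast at ht
        have hq : S.qy m (S.act 0 (0, -1) t) = j := by
          rw [qy_act, Int.emod_eq_of_lt (by simp; omega) (by simp; omega)]; simp; omega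
        have e := up _ (show S.qy m (S.act 0 (0, -1) t) < (S.P m : ℤ) - 1 by rw [hq]; omega)
        rw [ih _ hq, act_act, show ((0, 1) : Cell) + (0, -1) = 0 from rfl, act_zero, act_act] at e
        rw [e]
        congr 2
        ext <;> simp <;> ring
    intro t
    have h := key (S.qy m t).toNat t (by have := (bY t).1; omega)
    rwa [show (((S.qy m t).toNat : ℕ) : ℤ) = S.qy m t from Int.toNat_of_nonneg (bY t).1] at h
  set h₂ := S.partialSum (S.qx m) (1, 0) g₁
  set f₂ : S.Fun := fun t => f₁ t + S.dd (0, 1) h₂ t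
  set g₂ : S.Fun := fun t => g₁ t + S.dd (1, 0) h₂ t
  have c₂ : S.IsCycle f₂ g₂ := S.isCycle_add_dd c₁ h₂
  have eg : ∀ t, g₂ t = S.spreadX m (S.rowSum m g) t := by
    intro t
    rw [show g₂ t = _ from S.add_dd_partialSum (1, 0) g₁ t (bX t).1 (bX t).2 (S.qx_act m _ t)]
    simp only [spreadX, bottom, Prod.smul_mk, smul_eq_mul, mul_zero, mul_one, qy_act_horiz,
      act_act, rowSum, ← org_eq_root, org]
    split_ifs with hx
    · refine Finset.sum_congr rfl fun i _ => ?_
      congr 2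
      ext <;> simp <;> ring
    · rfl
  have right : ∀ t, S.qy m t = (S.P m : ℤ) - 1 → ∀ j : ℕ, S.qx m t = j →
      f₂ t = f₂ (S.act 0 (-(j : ℤ), 0) t) := by
    intro t ht j
    induction j generalizing t with
    | zero => intro _; exact congrArg f₂ (S.act_zero 0 t).symm
    | succ j ih =>
      intro hj
      have hb := (bX t).2
      push_cast at hj
      have hq : S.qx m (S.act 0 (-1, 0) t) = j := by
        rw [qx_act, Int.emod_eq_of_lt (by simp; omega) (by simp; omega)]; simp; omega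
      have hne : S.qx m (S.act 0 (-1, 0) t) ≠ (S.P m : ℤ) - 1 := by rw [hq]; omega
      have z1 : g₂ (S.act 0 (-1, 0) t) = 0 := by rw [eg, spreadX, if_neg hne]
      have z2 : g₂ (S.act 0 (0, 1) (S.act 0 (-1, 0) t)) = 0 := by
        rw [eg, spreadX, qx_act_vert, if_neg hne]
      have h := c₂ (S.act 0 (-1, 0) t)
      simp only [dd, z1, z2, add_zero] at h
      rw [act_act, show ((1, 0) : Cell) + (-1, 0) = 0 from rfl, act_zero] at h
      rw [eq2 _ _ h, ih _ (by rw [qy_act_horiz]; exact ht) hq, act_act]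
      congr 2
      ext <;> simp <;> ring
  have ef₂ : ∀ t, f₂ t = S.spreadY m (S.colSum m f) t := by
    intro t
    by_cases hy : S.qy m t = (S.P m : ℤ) - 1
    · rw [right t hy (S.qx m t).toNat (Int.toNat_of_nonneg (bX t).1).symm,
        Int.toNat_of_nonneg (bX t).1]
      have hq0 : S.qx m (S.act 0 (-S.qx m t, 0) t) = 0 := by rw [qx_act]; simp
      simp only [f₂, h₂, dd, partialSum, qx_act_vert, hq0, Int.toNat_zero, Finset.range_zero,
        Finset.sum_empty, add_zero, ef, qy_act_horiz, hy, if_true, spreadY, colSum, ← org_eq_root,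
        org, act_act, Prod.smul_mk, smul_eq_mul, mul_zero, mul_one]
      refine Finset.sum_congr rfl fun i _ => ?_
      congr 2
      ext <;> simp <;> ring
    · have hlt : S.qy m t < (S.P m : ℤ) - 1 := by have := (bY t).2; omega
      rw [spreadY, if_neg hy]
      simp only [f₂, ef, if_neg hy, zero_add, h₂, dd, partialSum, qx_act_vert, act_act]
      rw [← Finset.sum_add_distrib]
      refine Finset.sum_eq_zero fun i _ => ?_
      have e := up (S.act 0 ((-((i : ℤ) + 1)) • ((1, 0) : Cell)) t) (by simpa [qy_act_horiz] using hlt)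
      rw [act_act, add_comm] at e
      rw [e]
      exact CharTwo.add_self_eq_zero _
  refine QuotientAddGroup.eq.2 ⟨fun t => h₁ t + h₂ t, ?_, fun t => ?_⟩
  · have l1 : IsLocallyConstant g₁ :=
      hg.add (S.lc_dd (S.lc_partialSum (S.lc_qy m) _ hf) _)
    exact (S.lc_partialSum (S.lc_qy m) _ hf).add (S.lc_partialSum (S.lc_qx m) _ l1)
  · simp only [Prod.neg_mk, Prod.mk_add_mk, Pi.add_apply, Pi.neg_apply, ZMod.neg_eq_self_mod_two,
      ← ef₂, ← eg, f₂, g₂, f₁, g₁, dd]
    generalize f t = a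
    generalize g t = b
    have key : ∀ a p p' q q' : ZMod 2, a + (a + (p + p') + (q + q')) = p + q + (p' + q') := by
      decide
    exact ⟨key _ _ _ _ _, key _ _ _ _ _⟩

/-- Cycles that fit in the tiles of level `k`. -/
def Small₁ (k : ℕ) : Set ((S.Fun × S.Fun) ⧸ S.bdd₁) :=
  {c | ∃ R f g, S.Dep R f ∧ S.Dep R g ∧ 2 * R + 1 ≤ S.P k ∧ S.IsCycle f g ∧ S.cls₁ f g = c}

theorem small₁_mono : Monotone S.Small₁ := fun a b h c => by
  rintro ⟨R, f, g, hf, hg, hR, hc, e⟩
  exact ⟨R, f, g, hf, hg, hR.trans (S.P_mono h), hc, e⟩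

variable {S} (K : S.Classes)

attribute [local instance] Classes.finQ

theorem small₁_subset (hH : S.Halo) (hC : S.Corner) (k : ℕ) :
    S.Small₁ k ⊆ Set.range fun x : K.Param × K.Param =>
      S.cls₁ (S.spreadY (k + 4) (K.model S.colD (k + 1) x.1))
        (S.spreadX (k + 4) (K.model S.rowD (k + 1) x.2)) := by
  rintro c ⟨R, f, g, hf, hg, hR, hc, rfl⟩
  obtain ⟨ψ, hψ⟩ := S.colSum_window hH hC hf hR
  obtain ⟨χ, hχ⟩ := S.rowSum_window hH hC hg hR
  obtain ⟨x, hx⟩ := K.exists_param S.inBox_colD (k + 1) ψ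
  obtain ⟨y, hy⟩ := K.exists_param S.inBox_rowD (k + 1) χ
  refine ⟨(x, y), ?_⟩
  rw [S.cls₁_sides (k + 4) (S.lc_of_dep hf) (S.lc_of_dep hg) hc]
  simp only [colSum_succ, rowSum_succ] at *
  rw [hψ, hx, hχ, hy]

/-- E5b: the one-cycles are spanned in bounded radius. -/
theorem span1_of_classes (hH : S.Halo) (hC : S.Corner) (K : S.Classes) : S.Span1 := by
  classical
  obtain ⟨n, hn⟩ := exists_eq_iUnion S.small₁_mono _ fun k => small₁_subset K hH hC k
  have hfin : (S.Small₁ n).Finite := (Set.finite_range _).subset (small₁_subset K hH hC n)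
  have hrep : ∀ c : (S.Fun × S.Fun) ⧸ S.bdd₁, c ∈ S.Small₁ n →
      ∃ R f g, S.Dep R f ∧ S.Dep R g ∧ S.cls₁ f g = c :=
    fun c ⟨R, f, g, hf, hg, _, _, e⟩ => ⟨R, f, g, hf, hg, e⟩
  choose! R f' g' hf' hg' hcls using hrep
  refine ⟨hfin.toFinset.sup R, fun R₀ f g hf hg hc => ?_⟩
  have hcyc : S.IsCycle (fun t => f t.1) (fun t => g t.1) := fun t => by
    rw [← S.dd_eq_bd (fun _ => rfl) (1, 0) t, ← S.dd_eq_bd (fun _ => rfl) (0, 1) t]
    exact hc t.1 t.2
  have hmem : S.cls₁ (fun t => f t.1) (fun t => g t.1) ∈ S.Small₁ n :=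
    hn (2 * R₀ + 1) ⟨R₀, _, _, S.dep_of_radius hf, S.dep_of_radius hg, S.le_P _, hcyc, rfl⟩
  set c := S.cls₁ (fun t => f t.1) (fun t => g t.1) with hcdef
  have hle : R c ≤ hfin.toFinset.sup R := Finset.le_sup (hfin.mem_toFinset.2 hmem)
  obtain ⟨h, hh, e⟩ := QuotientAddGroup.eq.1 (hcls c hmem)
  obtain ⟨rh, hrh⟩ := S.exists_radius h hh
  have up : ∀ {a b : ℕ} {w : S.Fun}, a ≤ b → S.Dep a w → S.Dep b w :=
    fun hab hw t t' h => hw t t' fun p p1 p2 => h p (p1.trans (by exact_mod_cast hab))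
      (p2.trans (by exact_mod_cast hab))
  obtain ⟨F, hF, eF⟩ := S.exists_extension (up hle (hf' c hmem))
  obtain ⟨G, hG, eG⟩ := S.exists_extension (up hle (hg' c hmem))
  obtain ⟨H, hH', eH⟩ := S.exists_extension hrh
  refine ⟨F, G, H, rh, hF, hG, hH', fun t ht => ?_⟩
  obtain ⟨e1, e2⟩ := e ⟨t, ht⟩
  simp only [Prod.neg_mk, Prod.mk_add_mk, Pi.add_apply, Pi.neg_apply,
    ZMod.neg_eq_self_mod_two] at e1 e2
  rw [show F t = f' c ⟨t, ht⟩ from eF ⟨t, ht⟩, show G t = g' c ⟨t, ht⟩ from eG ⟨t, ht⟩,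
    S.dd_eq_bd eH _ ⟨t, ht⟩, S.dd_eq_bd eH _ ⟨t, ht⟩, ← e1, ← e2, ← add_assoc, ← add_assoc,
    CharTwo.add_self_eq_zero, CharTwo.add_self_eq_zero, zero_add, zero_add]
  exact ⟨rfl, rfl⟩

end MacroSystem

end Vale.Agent.P196.Sft
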