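import Vale.Agent.P196.Span.Det

/-!
# P196: locally constant functions and summing over tiles

A function with values in `ZMod 2` is moved, up to a boundary, to the last cell of every tile.
-/

namespace Vale.Agent.P196.Sft

namespace MacroSystem

variable (S : MacroSystem)

/-- Functions on the tilings of level `0`. -/
abbrev Fun : Type := S.Conf 0 → ZMod 2

/-- `u` only reads the cells at distance at most `R` from the origin. -/
def Dep {α : Type} (R : ℕ) (u : S.Conf 0 → α) : Prop :=
  ∀ t t' : S.Conf 0, (∀ p : Cell, |p.1| ≤ (R : ℤ) → |p.2| ≤ (R : ℤ) → t.1 p = t'.1 p) → u t = u t'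

/-- The difference in direction `d`. -/
def dd (d : Cell) (f : S.Fun) : S.Fun := fun t => f t + f (S.act 0 d t)

theorem dd_comm (d e : Cell) (f : S.Fun) (t : S.Conf 0) :
    S.dd d (S.dd e f) t = S.dd e (S.dd d f) t := by
  simp only [dd, act_act, add_comm d e]
  ring

theorem lc_of_dep {α : Type} {R : ℕ} {u : S.Conf 0 → α} (h : S.Dep R u) : IsLocallyConstant u := by
  refine (IsLocallyConstant.iff_exists_open _).2 fun t => ?_
  let B : Finset Cell := Finset.Icc (-(R : ℤ)) R ×ˢ Finset.Icc (-(R : ℤ)) R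
  refine ⟨⋂ p ∈ B, {s : S.Conf 0 | s.1 p = t.1 p}, ?_, by simp, fun s hs => ?_⟩
  · exact isOpen_biInter_finset fun p _ =>
      ((continuous_apply p).comp continuous_subtype_val :
        Continuous fun s : S.Conf 0 => s.1 p).isOpen_preimage {t.1 p} (isOpen_discrete _)
  · simp only [Set.mem_iInter, Set.mem_ofPred_eq] at hs
    refine h s t fun p p1 p2 => hs p ?_
    rw [abs_le] at p1 p2
    simp [B, p1, p2]

theorem lc_act {α : Type} {u : S.Conf 0 → α} (h : IsLocallyConstant u) (v : Cell) :
    IsLocallyConstant fun t => u (S.act 0 v t) :=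
  h.comp_continuous (S.continuous_act 0 v)

theorem lc_dd {f : S.Fun} (h : IsLocallyConstant f) (d : Cell) : IsLocallyConstant (S.dd d f) :=
  h.comp₂ (S.lc_act h d) (· + ·)

theorem lc_sum {ι : Type} (s : Finset ι) {f : ι → S.Fun} (h : ∀ i ∈ s, IsLocallyConstant (f i)) :
    IsLocallyConstant fun t => ∑ i ∈ s, f i t := by
  classical
  induction s using Finset.induction with
  | empty =>
    simp only [Finset.sum_empty]
    exact IsLocallyConstant.const _
  | insert i s hi ih =>
    simp only [Finset.sum_insert hi]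
    exact (h i (Finset.mem_insert_self i s)).comp₂
      (ih fun j hj => h j (Finset.mem_insert_of_mem hj)) (· + ·)

/-- A locally constant choice among locally constant functions. -/
theorem lc_dep {α : Type} {q : S.Conf 0 → α} (hq : IsLocallyConstant q) {F : α → S.Fun}
    (hF : ∀ a, IsLocallyConstant (F a)) : IsLocallyConstant fun t => F (q t) t := by
  refine (IsLocallyConstant.iff_eventually_eq _).2 fun t => ?_
  filter_upwards [(IsLocallyConstant.iff_eventually_eq _).1 hq t,
    (IsLocallyConstant.iff_eventually_eq _).1 (hF (q t)) t] with s h1 h2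
  rw [h1]
  exact h2

/-- The sum of `w` over the cells of a line strictly before `t` in its tile, `q` being the position
of `t` on the line. -/
def partialSum (q : S.Conf 0 → ℤ) (e : Cell) (w : S.Fun) : S.Fun :=
  fun t => ∑ i ∈ Finset.range (q t).toNat, w (S.act 0 ((-((i : ℤ) + 1)) • e) t)

theorem lc_partialSum {q : S.Conf 0 → ℤ} (hq : IsLocallyConstant q) (e : Cell) {w : S.Fun}
    (hw : IsLocallyConstant w) : IsLocallyConstant (S.partialSum q e w) :=
  S.lc_dep (F := fun a t => ∑ i ∈ Finset.range a.toNat, w (S.act 0 ((-((i : ℤ) + 1)) • e) t))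
    hq fun _ => S.lc_sum _ fun _ _ => S.lc_act hw _

/-- Moved to the end: `w` plus a boundary is carried by the last cells of the lines, where it is
the sum over the line. -/
theorem add_dd_partialSum {q : S.Conf 0 → ℤ} {P : ℕ} (e : Cell) (w : S.Fun) (t : S.Conf 0)
    (h0 : 0 ≤ q t) (h1 : q t < P) (he : q (S.act 0 e t) = (q t + 1) % (P : ℤ)) :
    w t + S.dd e (S.partialSum q e w) t =
      if q t = (P : ℤ) - 1 then
        ∑ i ∈ Finset.range P, w (S.act 0 (((i : ℤ) - q t) • e) t) else 0 := by
  by_cases hl : q t = (P : ℤ) - 1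
  · rw [if_pos hl]
    have e0 : q (S.act 0 e t) = 0 := by rw [he, hl]; simp
    obtain ⟨P', rfl⟩ : ∃ P', P = P' + 1 := ⟨P - 1, by omega⟩
    have hq : (q t).toNat = P' := by omega
    simp only [dd, partialSum, e0, Int.toNat_zero, Finset.range_zero, Finset.sum_empty, add_zero,
      hq]
    rw [Finset.sum_range_succ, add_comm (w t)]
    congr 1
    · rw [← Finset.sum_range_reflect]
      refine Finset.sum_congr rfl fun i hi => ?_
      rw [Finset.mem_range] at hi
      congr 3
      omega
    · rw [show ((P' : ℤ) - q t) = 0 by omega, zero_smul, act_zero]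
  · rw [if_neg hl]
    have e1 : q (S.act 0 e t) = q t + 1 := by
      rw [he, Int.emod_eq_of_lt (by omega) (by omega)]
    simp only [dd, partialSum, e1]
    rw [show (q t + 1).toNat = (q t).toNat + 1 by omega, Finset.sum_range_succ']
    simp only [act_act]
    have e2 : ∀ i : ℕ, (-((((i + 1 : ℕ)) : ℤ) + 1)) • e + e = (-((i : ℤ) + 1)) • e := by
      intro i
      push_cast
      module
    simp only [e2]
    simp only [Nat.cast_zero, zero_add, neg_smul, one_smul, neg_add_cancel, act_zero]
    generalize (∑ x ∈ Finset.range (q t).toNat, w _) = a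
    generalize w t = b
    revert a b
    decide

/-- The position of the origin on a horizontal line of its tile. -/
noncomputable def qx (m : ℕ) (t : S.Conf 0) : ℤ := (S.pos m t).1

/-- The position of the origin on a vertical line of its tile. -/
noncomputable def qy (m : ℕ) (t : S.Conf 0) : ℤ := (S.pos m t).2

theorem lc_qx (m : ℕ) : IsLocallyConstant (S.qx m) :=
  (S.isLocallyConstant_pos m).1.comp Prod.fst

theorem lc_qy (m : ℕ) : IsLocallyConstant (S.qy m) :=
  (S.isLocallyConstant_pos m).1.comp Prod.snd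

theorem qx_bounds (m : ℕ) (t : S.Conf 0) : 0 ≤ S.qx m t ∧ S.qx m t < S.P m := (S.pos_mem m t).1

theorem qy_bounds (m : ℕ) (t : S.Conf 0) : 0 ≤ S.qy m t ∧ S.qy m t < S.P m := (S.pos_mem m t).2

theorem qx_act (m : ℕ) (v : Cell) (t : S.Conf 0) :
    S.qx m (S.act 0 v t) = (S.qx m t + v.1) % (S.P m : ℤ) := congrArg Prod.fst (S.pos_act m v t)

theorem qy_act (m : ℕ) (v : Cell) (t : S.Conf 0) :
    S.qy m (S.act 0 v t) = (S.qy m t + v.2) % (S.P m : ℤ) := congrArg Prod.snd (S.pos_act m v t)

theorem qx_act_vert (m : ℕ) (y : ℤ) (t : S.Conf 0) : S.qx m (S.act 0 (0, y) t) = S.qx m t := by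
  rw [qx_act, add_zero, Int.emod_eq_of_lt (S.qx_bounds m t).1 (S.qx_bounds m t).2]

theorem qy_act_horiz (m : ℕ) (x : ℤ) (t : S.Conf 0) : S.qy m (S.act 0 (x, 0) t) = S.qy m t := by
  rw [qy_act, add_zero, Int.emod_eq_of_lt (S.qy_bounds m t).1 (S.qy_bounds m t).2]

/-- The first cell of the tile of the origin. -/
noncomputable def org (m : ℕ) (t : S.Conf 0) : S.Conf 0 :=
  S.act 0 (-S.qx m t, -S.qy m t) t

theorem org_eq_root (m : ℕ) (t : S.Conf 0) : S.org m t = S.root m (S.tile m t) := by
  have h : S.pos m (S.org m t) = 0 := by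
    rw [org, pos_act]; simp [qx, qy]
  have h' : S.tile m (S.org m t) = S.tile m t := by
    rw [org, tile_act]
    simp only [qx, qy, add_neg_cancel, Int.zero_ediv]
    exact S.act_zero _ _
  rw [← h', S.root_tile m _ h]

/-- Sum over the bottom row of a tile. -/
noncomputable def rowSum (m : ℕ) (u : S.Fun) (T : S.Conf m) : ZMod 2 :=
  ∑ i ∈ Finset.range (S.P m), u (S.act 0 ((i : ℤ), 0) (S.root m T))

/-- Sum over the left column of a tile. -/
noncomputable def colSum (m : ℕ) (u : S.Fun) (T : S.Conf m) : ZMod 2 :=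
  ∑ j ∈ Finset.range (S.P m), u (S.act 0 (0, (j : ℤ)) (S.root m T))

/-- Sum over a tile. -/
noncomputable def boxSum (m : ℕ) (u : S.Fun) (T : S.Conf m) : ZMod 2 :=
  ∑ i ∈ Finset.range (S.P m), ∑ j ∈ Finset.range (S.P m),
    u (S.act 0 ((i : ℤ), (j : ℤ)) (S.root m T))

end MacroSystem

end Vale.Agent.P196.Sft
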