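import Vale.Agent.P196.Span.Det

/-!
# P196: three pushes leave boundedly many functions

`Classes` says how the window of a child reads the window of its parent: only addresses, only the
finite role part, or the addresses and one label of the role part; a label of a child never mixes
the two. After three levels of summing over children, the functions of windows form a set that
is parametrised by a finite type independent of the level.
-/

namespace Vale.Agent.P196.Sft

namespace MacroSystem

variable (S : MacroSystem)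

/-- The child in residue `p` of the parent `0`, as the window whose upper right cell it is. -/
noncomputable def childWin (n : ℕ) (p : ℕ × ℕ) (T : S.Conf (n + 1)) : Win (S.C n) :=
  S.cw n (S.act n ((p.1 : ℤ), (p.2 : ℤ)) (S.base n T))

/-- The classification of child windows. -/
structure Classes where
  /-- the addresses of a window -/
  A : ℕ → Type
  /-- the role part of a window, the same at every level -/
  Q : Type
  finQ : Fintype Q
  /-- the labels in the role part -/
  J : Type
  finJ : Fintype J
  Lab : Type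
  addr : ∀ n, Win (S.C n) → A n
  role : ∀ n, Win (S.C n) → Q
  lab : J → Q → Lab
  /-- the addresses of a child are given by its position -/
  addr_child : ∀ n (p : ℕ × ℕ), p.1 < S.Z n → p.2 < S.Z n → ∀ T T' : S.Conf (n + 1),
    addr n (S.childWin n p T) = addr n (S.childWin n p T')
  /-- a child window reads addresses, or roles, or addresses and one label -/
  cases_child : ∀ n (p : ℕ × ℕ), p.1 < S.Z n → p.2 < S.Z n →
    (∀ T T' : S.Conf (n + 1), addr _ (S.cw _ T) = addr _ (S.cw _ T') →
      S.childWin n p T = S.childWin n p T') ∨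
    (∀ T T' : S.Conf (n + 1), role _ (S.cw _ T) = role _ (S.cw _ T') →
      S.childWin n p T = S.childWin n p T') ∨
    ∃ j, ∀ T T' : S.Conf (n + 1), addr _ (S.cw _ T) = addr _ (S.cw _ T') →
      lab j (role _ (S.cw _ T)) = lab j (role _ (S.cw _ T')) →
      S.childWin n p T = S.childWin n p T'
  /-- a label of a child reads only addresses or only roles -/
  lab_child : ∀ n (p : ℕ × ℕ) (j : J), p.1 < S.Z n → p.2 < S.Z n →
    (∀ T T' : S.Conf (n + 1), addr _ (S.cw _ T) = addr _ (S.cw _ T') →
      lab j (role n (S.childWin n p T)) = lab j (role n (S.childWin n p T'))) ∨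
    (∀ T T' : S.Conf (n + 1), role _ (S.cw _ T) = role _ (S.cw _ T') →
      lab j (role n (S.childWin n p T)) = lab j (role n (S.childWin n p T')))

/-- Sums of a function over some children. -/
noncomputable def push (D : ℕ → Finset (ℕ × ℕ)) (n : ℕ) (φ : S.Conf n → ZMod 2)
    (T : S.Conf (n + 1)) : ZMod 2 :=
  ∑ p ∈ D n, φ (S.act n ((p.1 : ℤ), (p.2 : ℤ)) (S.base n T))

/-- A finite family of positions of children at every level. -/
def InBox (D : ℕ → Finset (ℕ × ℕ)) : Prop := ∀ n, ∀ p ∈ D n, p.1 < S.Z n ∧ p.2 < S.Z n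

variable {S} (K : S.Classes)

attribute [local instance] Classes.finQ Classes.finJ

namespace Classes

/-- A function of the addresses plus a function of the roles. -/
def Simple₁ (n : ℕ) (φ : S.Conf n → ZMod 2) : Prop :=
  ∃ (a : K.A n → ZMod 2) (ρ : K.Q → ZMod 2), ∀ T,
    φ T = a (K.addr n (S.cw n T)) + ρ (K.role n (S.cw n T))

/-- A simple function plus functions of the addresses and one label. -/
def Nice (n : ℕ) (φ : S.Conf n → ZMod 2) : Prop :=
  ∃ (a : K.A n → ZMod 2) (ρ : K.Q → ZMod 2) (μ : K.J → K.A n → K.Lab → ZMod 2), ∀ T,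
    φ T = a (K.addr n (S.cw n T)) + ρ (K.role n (S.cw n T)) +
      ∑ j, μ j (K.addr n (S.cw n T)) (K.lab j (K.role n (S.cw n T)))

theorem simple₁_sum {n : ℕ} {ι : Type} (s : Finset ι) (f : ι → S.Conf n → ZMod 2)
    (h : ∀ i ∈ s, K.Simple₁ n (f i)) : K.Simple₁ n fun T => ∑ i ∈ s, f i T := by
  classical
  induction s using Finset.induction with
  | empty => exact ⟨0, 0, fun T => by simp⟩
  | insert i s hi ih =>
    obtain ⟨a, ρ, e⟩ := h i (Finset.mem_insert_self i s)
    obtain ⟨a', ρ', e'⟩ := ih fun j hj => h j (Finset.mem_insert_of_mem hj)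
    refine ⟨a + a', ρ + ρ', fun T => ?_⟩
    simp only at e' ⊢
    rw [Finset.sum_insert hi, e, e']
    simp only [Pi.add_apply]
    ring

theorem nice_sum {n : ℕ} {ι : Type} (s : Finset ι) (f : ι → S.Conf n → ZMod 2)
    (h : ∀ i ∈ s, K.Nice n (f i)) : K.Nice n fun T => ∑ i ∈ s, f i T := by
  classical
  induction s using Finset.induction with
  | empty => exact ⟨0, 0, 0, fun T => by simp⟩
  | insert i s hi ih =>
    obtain ⟨a, ρ, μ, e⟩ := h i (Finset.mem_insert_self i s)
    obtain ⟨a', ρ', μ', e'⟩ := ih fun j hj => h j (Finset.mem_insert_of_mem hj)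
    refine ⟨a + a', ρ + ρ', μ + μ', fun T => ?_⟩
    simp only at e' ⊢
    rw [Finset.sum_insert hi, e, e']
    simp only [Pi.add_apply, Finset.sum_add_distrib]
    ring

variable {D : ℕ → Finset (ℕ × ℕ)}

/-- One push of any function of windows. -/
theorem nice_push (hD : S.InBox D) (n : ℕ) (φ : Win (S.C n) → ZMod 2) :
    K.Nice (n + 1) (S.push D n fun T => φ (S.cw n T)) := by
  classical
  refine K.nice_sum _ _ fun p hp => ?_
  obtain ⟨h1, h2⟩ := hD n p hp
  rcases K.cases_child n p h1 h2 with h | h | ⟨j, h⟩
  · obtain ⟨a, ha⟩ := (Function.factorsThrough_iff _).1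
      (fun T T' e => congrArg φ (h T T' e) :
        Function.FactorsThrough (fun T => φ (S.childWin n p T)) fun T => K.addr _ (S.cw _ T))
    exact ⟨a, 0, 0, fun T => by simpa [childWin] using congrFun ha T⟩
  · obtain ⟨ρ, hρ⟩ := (Function.factorsThrough_iff _).1
      (fun T T' e => congrArg φ (h T T' e) :
        Function.FactorsThrough (fun T => φ (S.childWin n p T)) fun T => K.role _ (S.cw _ T))
    exact ⟨0, ρ, 0, fun T => by simpa [childWin] using congrFun hρ T⟩
  · obtain ⟨μ, hμ⟩ := (Function.factorsThrough_iff _).1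
      (fun T T' e => congrArg φ (h T T' (congrArg Prod.fst e) (congrArg Prod.snd e)) :
        Function.FactorsThrough (fun T => φ (S.childWin n p T)) fun T =>
          (K.addr _ (S.cw _ T), K.lab j (K.role _ (S.cw _ T))))
    refine ⟨0, 0, Pi.single j fun a l => μ (a, l), fun T => ?_⟩
    rw [Finset.sum_eq_single j (fun i _ hi => by simp [Pi.single_eq_of_ne hi]) (by simp)]
    simpa [childWin, Pi.single_eq_same] using congrFun hμ T

/-- A push of a function of addresses is constant. -/
theorem push_addr (hD : S.InBox D) (n : ℕ) (a : K.A n → ZMod 2) :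
    ∃ c : ZMod 2, ∀ T, S.push D n (fun T => a (K.addr n (S.cw n T))) T = c := by
  obtain ⟨t, ht⟩ := S.legal_nonempty (n + 1)
  refine ⟨S.push D n (fun T => a (K.addr n (S.cw n T))) ⟨t, ht⟩, fun T => ?_⟩
  refine Finset.sum_congr rfl fun p hp => ?_
  obtain ⟨h1, h2⟩ := hD n p hp
  exact congrArg a (K.addr_child n p h1 h2 T ⟨t, ht⟩)

/-- A push of a function of addresses and one label is simple. -/
theorem simple₁_push_lab (hD : S.InBox D) (n : ℕ) (j : K.J) (μ : K.A n → K.Lab → ZMod 2) :
    K.Simple₁ (n + 1)
      (S.push D n fun T => μ (K.addr n (S.cw n T)) (K.lab j (K.role n (S.cw n T)))) := by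
  refine K.simple₁_sum _ _ fun p hp => ?_
  obtain ⟨h1, h2⟩ := hD n p hp
  rcases K.lab_child n p j h1 h2 with h | h
  · obtain ⟨a, ha⟩ := (Function.factorsThrough_iff _).1
      (fun T T' e => congrArg₂ μ (K.addr_child n p h1 h2 T T') (h T T' e) :
        Function.FactorsThrough (fun T => μ (K.addr n (S.childWin n p T))
          (K.lab j (K.role n (S.childWin n p T)))) fun T => K.addr _ (S.cw _ T))
    exact ⟨a, 0, fun T => by simpa [childWin] using congrFun ha T⟩
  · obtain ⟨ρ, hρ⟩ := (Function.factorsThrough_iff _).1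
      (fun T T' e => congrArg₂ μ (K.addr_child n p h1 h2 T T') (h T T' e) :
        Function.FactorsThrough (fun T => μ (K.addr n (S.childWin n p T))
          (K.lab j (K.role n (S.childWin n p T)))) fun T => K.role _ (S.cw _ T))
    exact ⟨0, ρ, fun T => by simpa [childWin] using congrFun hρ T⟩

/-- The finitely many parameters of a function pushed three times. -/
abbrev Param : Type := ZMod 2 × (K.Q → ZMod 2) × (K.Q → ZMod 2)

/-- The function with given parameters at level `n + 3`. -/
noncomputable def model (D : ℕ → Finset (ℕ × ℕ)) (n : ℕ) (x : K.Param) :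
    S.Conf (n + 3) → ZMod 2 :=
  fun T => x.1 + S.push D (n + 2) (S.push D (n + 1) fun U => x.2.1 (K.role _ (S.cw _ U))) T +
    S.push D (n + 2) (fun U => x.2.2 (K.role _ (S.cw _ U))) T

theorem push_sum (n : ℕ) {ι : Type} (s : Finset ι) (φ : ι → S.Conf n → ZMod 2)
    (T : S.Conf (n + 1)) :
    S.push D n (fun U => ∑ i ∈ s, φ i U) T = ∑ i ∈ s, S.push D n (φ i) T :=
  Finset.sum_comm

theorem push_add (n : ℕ) (φ ψ : S.Conf n → ZMod 2) (T : S.Conf (n + 1)) :
    S.push D n (fun U => φ U + ψ U) T = S.push D n φ T + S.push D n ψ T :=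
  Finset.sum_add_distrib

/-- Three pushes of any function of windows give one of the models. -/
theorem exists_param (hD : S.InBox D) (n : ℕ) (φ : Win (S.C n) → ZMod 2) :
    ∃ x : K.Param, S.push D (n + 2) (S.push D (n + 1) (S.push D n fun T => φ (S.cw n T))) =
      K.model D n x := by
  classical
  obtain ⟨a, ρ₁, μ, e₁⟩ := K.nice_push hD n φ
  obtain ⟨c, hc⟩ := K.push_addr hD (n + 1) a
  obtain ⟨a₂, ρ₂, e₂⟩ := K.simple₁_sum Finset.univ
    (fun j => S.push D (n + 1) fun U => μ j (K.addr _ (S.cw _ U)) (K.lab j (K.role _ (S.cw _ U))))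
    fun j _ => K.simple₁_push_lab hD (n + 1) j (μ j)
  obtain ⟨c', hc'⟩ := K.push_addr hD (n + 2) fun b => c + a₂ b
  have two : ∀ T, S.push D (n + 1) (S.push D n fun T => φ (S.cw n T)) T =
      (c + a₂ (K.addr _ (S.cw _ T))) +
        S.push D (n + 1) (fun U => ρ₁ (K.role _ (S.cw _ U))) T +
        ρ₂ (K.role _ (S.cw _ T)) := by
    intro T
    simp only at e₂
    rw [funext e₁, push_add, push_add, hc, push_sum, e₂ T]
    ring
  refine ⟨(c', ρ₁, ρ₂), funext fun T => ?_⟩
  rw [funext two, push_add, push_add, hc']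
  rfl

end Classes

end MacroSystem

end Vale.Agent.P196.Sft
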