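import Vale.Agent.P196.Sft.Basic

/-!
# P196: what the window of a tile determines

`Halo`: the children in `[-2, Z) ^ 2` are drawn from the window of their parent alone. `Corner`:
the children in `[-2, 0] ^ 2` are the same in every tiling. Both carry down to the cells of level
`0`.
-/

namespace Vale.Agent.P196.Sft

namespace MacroSystem

variable (S : MacroSystem)

/-- The window whose upper right cell is the origin. -/
def cw (n : ℕ) (T : S.Conf n) : Win (S.C n) := windowAt T.1 (-1, -1)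

/-- The origin is the first cell of its parent. -/
def AtCorner (n : ℕ) (T : S.Conf n) : Prop := Res.cell S (S.res n T) = 0

/-- The window of a parent determines its children and a margin of width `2` on their left and
below them. -/
def Halo : Prop :=
  ∀ n (T T' : S.Conf n), S.AtCorner n T → S.AtCorner n T' → S.win n T = S.win n T' →
    ∀ c : Cell, -2 ≤ c.1 → c.1 < S.Z n → -2 ≤ c.2 → c.2 < S.Z n → T.1 c = T'.1 c

/-- The children around the corner of four parents are always the same. -/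
def Corner : Prop :=
  ∀ n (T T' : S.Conf n), S.AtCorner n T → S.AtCorner n T' →
    ∀ c : Cell, -2 ≤ c.1 → c.1 ≤ 0 → -2 ≤ c.2 → c.2 ≤ 0 → T.1 c = T'.1 c

/-- The residue of the first cell. -/
def res0 (n : ℕ) : S.Res n := (⟨0, S.zoom_pos n⟩, ⟨0, S.zoom_pos n⟩)

/-- The children of a tiling of parents, the origin being the first child of the parent `0`. -/
noncomputable def base (n : ℕ) (T : S.Conf (n + 1)) : S.Conf n := S.build n (S.res0 n, T)

theorem res_base (n : ℕ) (T : S.Conf (n + 1)) : S.res n (S.base n T) = S.res0 n := by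
  show ((S.buildEquiv n).symm (S.buildEquiv n (S.res0 n, T))).1 = _
  rw [Equiv.symm_apply_apply]

theorem par_base (n : ℕ) (T : S.Conf (n + 1)) : S.par n (S.base n T) = T := by
  show ((S.buildEquiv n).symm (S.buildEquiv n (S.res0 n, T))).2 = _
  rw [Equiv.symm_apply_apply]

theorem atCorner_base (n : ℕ) (T : S.Conf (n + 1)) : S.AtCorner n (S.base n T) := by
  simp [AtCorner, res_base, res0, Res.cell]

theorem win_base (n : ℕ) (T : S.Conf (n + 1)) : S.win n (S.base n T) = S.cw (n + 1) T := by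
  rw [win, par_base, cw]

theorem base_par {n : ℕ} {T : S.Conf n} (h : S.AtCorner n T) : S.base n (S.par n T) = T := by
  have e : S.res n T = S.res0 n := by
    simp only [AtCorner, Res.cell, Prod.mk_eq_zero, Nat.cast_eq_zero] at h
    exact Prod.ext (Fin.ext h.1) (Fin.ext h.2)
  rw [base, ← e, build_res_par]

/-- The tiling of level `0` under `T`, the origin at the first cell of the tile `0`. -/
noncomputable def root : ∀ m, S.Conf m → S.Conf 0
  | 0, T => T
  | m + 1, T => root m (S.base m T)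

theorem pos_succ_eq (m : ℕ) (s : S.Conf 0) : S.pos (m + 1) s =
    ((S.res m (S.tile m s)).1.val * (S.P m : ℤ) + (S.pos m s).1,
      (S.res m (S.tile m s)).2.val * (S.P m : ℤ) + (S.pos m s).2) := rfl

theorem tile_succ_eq (m : ℕ) (s : S.Conf 0) : S.tile (m + 1) s = S.par m (S.tile m s) := rfl

theorem root_spec : ∀ m (T : S.Conf m), S.pos m (S.root m T) = 0 ∧ S.tile m (S.root m T) = T
  | 0, _ => ⟨rfl, rfl⟩
  | m + 1, T => by
    obtain ⟨hp, ht⟩ := root_spec m (S.base m T)
    refine ⟨?_, ?_⟩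
    · rw [root, pos_succ_eq, hp, ht, res_base]
      simp [res0]
    · rw [root, tile_succ_eq, ht, par_base]

theorem pos_root (m : ℕ) (T : S.Conf m) : S.pos m (S.root m T) = 0 := (S.root_spec m T).1

theorem tile_root (m : ℕ) (T : S.Conf m) : S.tile m (S.root m T) = T := (S.root_spec m T).2

theorem pos_zero_succ {m : ℕ} {s : S.Conf 0} (h : S.pos (m + 1) s = 0) :
    S.pos m s = 0 ∧ S.AtCorner m (S.tile m s) := by
  have hP : (0 : ℤ) < S.P m := by exact_mod_cast S.P_pos m
  obtain ⟨⟨a1, -⟩, a2, -⟩ := S.pos_mem m s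
  simp only [pos_succ_eq, Prod.mk_eq_zero] at h
  have b1 : (0 : ℤ) ≤ (S.res m (S.tile m s)).1.val * (S.P m : ℤ) := by positivity
  have b2 : (0 : ℤ) ≤ (S.res m (S.tile m s)).2.val * (S.P m : ℤ) := by positivity
  obtain ⟨h1, h2⟩ := h
  refine ⟨Prod.ext (by simp; omega) (by simp; omega), ?_⟩
  have c1 : ((S.res m (S.tile m s)).1.val : ℤ) * (S.P m : ℤ) = 0 := by omega
  have c2 : ((S.res m (S.tile m s)).2.val : ℤ) * (S.P m : ℤ) = 0 := by omega
  rw [mul_eq_zero, or_iff_left hP.ne'] at c1 c2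
  exact Prod.ext c1 c2

theorem root_tile : ∀ (m : ℕ) (s : S.Conf 0), S.pos m s = 0 → S.root m (S.tile m s) = s
  | 0, _, _ => rfl
  | m + 1, s, h => by
    obtain ⟨h1, h2⟩ := S.pos_zero_succ h
    rw [root, tile_succ_eq, S.base_par h2, root_tile m s h1]

theorem act_apply (n : ℕ) (v c : Cell) (T : S.Conf n) : (S.act n v T).1 c = T.1 (c + v) := rfl

theorem cw_act (n : ℕ) (a : Cell) (T : S.Conf n) :
    S.cw n (S.act n a T) = windowAt T.1 (a.1 - 1, a.2 - 1) := by
  show windowAt (shiftBy a T.1) _ = _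
  rw [windowAt_shiftBy]
  congr 1
  ext <;> simp <;> ring

/-- Moving by whole tiles. -/
theorem act_tiles (m : ℕ) (a : Cell) (s : S.Conf 0) (h : S.pos m s = 0) :
    S.pos m (S.act 0 (a.1 * S.P m, a.2 * S.P m) s) = 0 ∧
      S.tile m (S.act 0 (a.1 * S.P m, a.2 * S.P m) s) = S.act m a (S.tile m s) := by
  have hP : (S.P m : ℤ) ≠ 0 := by exact_mod_cast (S.P_pos m).ne'
  refine ⟨?_, ?_⟩
  · rw [pos_act, h]; simp
  · rw [tile_act, h]; simp [Int.mul_ediv_cancel _ hP]

/-- Going down one level: equal windows at the tile `a` give equal cells there. -/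
theorem eq_of_tile_window {m : ℕ} {lo : ℤ}
    (det : ∀ s s' : S.Conf 0, S.pos m s = 0 → S.pos m s' = 0 →
      S.cw m (S.tile m s) = S.cw m (S.tile m s') →
      ∀ c : Cell, lo ≤ c.1 → c.1 < S.P m → lo ≤ c.2 → c.2 < S.P m → s.1 c = s'.1 c)
    {s s' : S.Conf 0} (hs : S.pos m s = 0) (hs' : S.pos m s' = 0) (a c : Cell)
    (hw : ∀ d : Cell, a.1 - 1 ≤ d.1 → d.1 ≤ a.1 → a.2 - 1 ≤ d.2 → d.2 ≤ a.2 →
      (S.tile m s).1 d = (S.tile m s').1 d)
    (h1 : lo ≤ c.1 - a.1 * S.P m) (h1' : c.1 - a.1 * S.P m < S.P m)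
    (h2 : lo ≤ c.2 - a.2 * S.P m) (h2' : c.2 - a.2 * S.P m < S.P m) : s.1 c = s'.1 c := by
  obtain ⟨p, t⟩ := S.act_tiles m a s hs
  obtain ⟨p', t'⟩ := S.act_tiles m a s' hs'
  have e := det _ _ p p' (by
    rw [t, t', cw_act, cw_act]
    funext d
    obtain ⟨i, j⟩ := d
    have := i.isLt
    have := j.isLt
    exact hw _ (by simp) (by simp; omega) (by simp) (by simp; omega))
    (c - (a.1 * S.P m, a.2 * S.P m)) h1 h1' h2 h2'
  simpa only [act_apply, sub_add_cancel] using e

/-- The window of a tile determines the tile and the cells just left of it and below it. -/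
theorem cells_eq_of_window (hH : S.Halo) : ∀ m (s s' : S.Conf 0),
    S.pos m s = 0 → S.pos m s' = 0 → S.cw m (S.tile m s) = S.cw m (S.tile m s') →
    ∀ c : Cell, -1 ≤ c.1 → c.1 < S.P m → -1 ≤ c.2 → c.2 < S.P m → s.1 c = s'.1 c := by
  intro m
  induction m with
  | zero =>
    intro s s' _ _ hw c h1 h1' h2 h2'
    simp only [P, Nat.cast_one] at h1' h2'
    have e := congrFun hw (⟨(c.1 + 1).toNat, by omega⟩, ⟨(c.2 + 1).toNat, by omega⟩)
    simp only [cw, windowAt] at e
    rw [show (-1 + ((c.1 + 1).toNat : ℤ), -1 + ((c.2 + 1).toNat : ℤ)) = c by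
      ext <;> simp <;> omega] at e
    exact e
  | succ m ih =>
    intro s s' hs hs' hw c h1 h1' h2 h2'
    obtain ⟨p, k⟩ := S.pos_zero_succ hs
    obtain ⟨p', k'⟩ := S.pos_zero_succ hs'
    have hP : (0 : ℤ) < S.P m := by exact_mod_cast S.P_pos m
    have hM : (S.P (m + 1) : ℤ) = S.Z m * S.P m := by simp [P]
    have key : ∀ x : ℤ, -1 ≤ x → x < S.P (m + 1) → ∃ a : ℤ,
        0 ≤ a ∧ a < S.Z m ∧ -1 ≤ x - a * S.P m ∧ x - a * S.P m < S.P m := by
      intro x x1 x2
      rcases lt_or_ge x 0 with hx | hx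
      · exact ⟨0, le_rfl, by exact_mod_cast S.zoom_pos m, by omega, by omega⟩
      · refine ⟨x / S.P m, Int.ediv_nonneg hx hP.le, ?_, ?_, ?_⟩
        · exact (Int.ediv_lt_iff_lt_mul hP).2 (by linarith)
        · have := Int.emod_nonneg x hP.ne'; rw [Int.emod_def] at this; linarith
        · have := Int.emod_lt_of_pos x hP; rw [Int.emod_def] at this; linarith
    obtain ⟨a1, u1, u2, u3, u4⟩ := key c.1 h1 h1'
    obtain ⟨a2, v1, v2, v3, v4⟩ := key c.2 h2 h2'
    exact S.eq_of_tile_window ih p p' (a1, a2) c (fun d d1 d2 d3 d4 =>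
      hH m _ _ k k' hw d (by simp at d1; omega) (by simp at d2; omega) (by simp at d3; omega)
        (by simp at d4; omega)) u3 u4 v3 v4

/-- Equal children in a box give equal cells in the box of their tiles. -/
theorem cells_eq_of_children (hH : S.Halo) {m : ℕ} {s s' : S.Conf 0} (hs : S.pos m s = 0)
    (hs' : S.pos m s' = 0) {hi : ℤ}
    (hc : ∀ d : Cell, -2 ≤ d.1 → d.1 < hi → -2 ≤ d.2 → d.2 < hi →
      (S.tile m s).1 d = (S.tile m s').1 d)
    (c : Cell) (h1 : -(S.P m : ℤ) ≤ c.1) (h1' : c.1 < hi * S.P m)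
    (h2 : -(S.P m : ℤ) ≤ c.2) (h2' : c.2 < hi * S.P m) : s.1 c = s'.1 c := by
  have hP : (0 : ℤ) < S.P m := by exact_mod_cast S.P_pos m
  have key : ∀ x : ℤ, -(S.P m : ℤ) ≤ x → x < hi * S.P m →
      -1 ≤ x / S.P m ∧ x / (S.P m : ℤ) < hi ∧ -1 ≤ x - x / S.P m * S.P m ∧
        x - x / S.P m * S.P m < S.P m := by
    intro x x1 x2
    have e1 := Int.emod_nonneg x hP.ne'
    have e2 := Int.emod_lt_of_pos x hP
    rw [Int.emod_def] at e1 e2
    exact ⟨(Int.le_ediv_iff_mul_le hP).2 (by linarith), (Int.ediv_lt_iff_lt_mul hP).2 x2,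
      by linarith, by linarith⟩
  obtain ⟨u1, u2, u3, u4⟩ := key c.1 h1 h1'
  obtain ⟨v1, v2, v3, v4⟩ := key c.2 h2 h2'
  exact S.eq_of_tile_window (S.cells_eq_of_window hH m) hs hs' (c.1 / S.P m, c.2 / S.P m) c
    (fun d d1 d2 d3 d4 => hc d (by simp at d1; omega) (by simp at d2; omega) (by simp at d3; omega)
      (by simp at d4; omega)) u3 u4 v3 v4

/-- The window of a tile determines its cells and a margin of one tile of the level below. -/
theorem cells_eq_margin (hH : S.Halo) {m : ℕ} {s s' : S.Conf 0} (hs : S.pos (m + 1) s = 0)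
    (hs' : S.pos (m + 1) s' = 0)
    (hw : S.cw (m + 1) (S.tile (m + 1) s) = S.cw (m + 1) (S.tile (m + 1) s')) (c : Cell)
    (h1 : -(S.P m : ℤ) ≤ c.1) (h1' : c.1 < S.P (m + 1))
    (h2 : -(S.P m : ℤ) ≤ c.2) (h2' : c.2 < S.P (m + 1)) : s.1 c = s'.1 c := by
  obtain ⟨p, k⟩ := S.pos_zero_succ hs
  obtain ⟨p', k'⟩ := S.pos_zero_succ hs'
  refine S.cells_eq_of_children hH p p' (hi := S.Z m) (fun d d1 d2 d3 d4 =>
    hH m _ _ k k' hw d d1 d2 d3 d4) c h1 ?_ h2 ?_ <;> simpa [P]

/-- The cells around the first cell of a tile are always the same. -/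
theorem cells_eq_corner (hH : S.Halo) (hC : S.Corner) {m : ℕ} {s s' : S.Conf 0}
    (hs : S.pos (m + 1) s = 0) (hs' : S.pos (m + 1) s' = 0) (c : Cell)
    (h1 : -(S.P m : ℤ) ≤ c.1) (h1' : c.1 < S.P m)
    (h2 : -(S.P m : ℤ) ≤ c.2) (h2' : c.2 < S.P m) : s.1 c = s'.1 c := by
  obtain ⟨p, k⟩ := S.pos_zero_succ hs
  obtain ⟨p', k'⟩ := S.pos_zero_succ hs'
  exact S.cells_eq_of_children hH p p' (hi := 1) (fun d d1 d2 d3 d4 =>
    hC m _ _ k k' d d1 (by omega) d3 (by omega)) c h1 (by simpa using h1') h2 (by simpa using h2')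

end MacroSystem

end Vale.Agent.P196.Sft
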