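import Vale.Agent.P196.Span.Calc
import Vale.Agent.P196.Span.Classes

/-!
# P196: sums over tiles read windows only, and push along the levels
-/

namespace Vale.Agent.P196.Sft

namespace MacroSystem

variable (S : MacroSystem)

/-- All children. -/
def boxD (n : ℕ) : Finset (ℕ × ℕ) := Finset.range (S.Z n) ×ˢ Finset.range (S.Z n)

/-- The bottom row of children. -/
def rowD (n : ℕ) : Finset (ℕ × ℕ) := Finset.range (S.Z n) ×ˢ {0}

/-- The left column of children. -/
def colD (n : ℕ) : Finset (ℕ × ℕ) := {0} ×ˢ Finset.range (S.Z n)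

theorem inBox_boxD : S.InBox S.boxD := fun n p hp => by
  simpa [boxD] using hp

theorem inBox_rowD : S.InBox S.rowD := fun n p hp => by
  simp only [rowD, Finset.mem_product, Finset.mem_range, Finset.mem_singleton] at hp
  exact ⟨hp.1, hp.2 ▸ S.zoom_pos n⟩

theorem inBox_colD : S.InBox S.colD := fun n p hp => by
  simp only [colD, Finset.mem_product, Finset.mem_range, Finset.mem_singleton] at hp
  exact ⟨hp.1 ▸ S.zoom_pos n, hp.2⟩

theorem sum_range_mul_add (Z P : ℕ) (f : ℕ → ZMod 2) :
    ∑ x ∈ Finset.range (Z * P), f x =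
      ∑ i ∈ Finset.range Z, ∑ j ∈ Finset.range P, f (i * P + j) := by
  induction Z with
  | zero => simp
  | succ Z ih => rw [Nat.succ_mul, Finset.sum_range_add, ih, Finset.sum_range_succ]

/-- The first cell of a child tile. -/
theorem root_child (m : ℕ) (T : S.Conf (m + 1)) (a b : ℕ) :
    S.root m (S.act m ((a : ℤ), (b : ℤ)) (S.base m T)) =
      S.act 0 ((a : ℤ) * S.P m, (b : ℤ) * S.P m) (S.root (m + 1) T) := by
  obtain ⟨hp, ht⟩ := S.root_spec m (S.base m T)
  obtain ⟨p, t⟩ := S.act_tiles m ((a : ℤ), (b : ℤ)) _ hp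
  rw [ht] at t
  rw [← t, S.root_tile m _ p]
  rfl

theorem boxSum_succ (m : ℕ) (u : S.Fun) :
    S.boxSum (m + 1) u = S.push S.boxD m (S.boxSum m u) := by
  funext T
  simp only [boxSum, push, boxD, P, Finset.sum_product, root_child, act_act, sum_range_mul_add]
  refine Finset.sum_congr rfl fun i _ => ?_
  rw [Finset.sum_comm]
  refine Finset.sum_congr rfl fun i' _ => Finset.sum_congr rfl fun j _ =>
    Finset.sum_congr rfl fun j' _ => ?_
  congr 2
  ext <;> simp <;> ring

theorem rowSum_succ (m : ℕ) (u : S.Fun) :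
    S.rowSum (m + 1) u = S.push S.rowD m (S.rowSum m u) := by
  funext T
  simp only [rowSum, push, rowD, P, Finset.sum_product, Finset.sum_singleton, root_child, act_act,
    sum_range_mul_add]
  refine Finset.sum_congr rfl fun i _ => Finset.sum_congr rfl fun j _ => ?_
  congr 2
  ext <;> simp <;> ring

theorem colSum_succ (m : ℕ) (u : S.Fun) :
    S.colSum (m + 1) u = S.push S.colD m (S.colSum m u) := by
  funext T
  simp only [colSum, push, colD, P, Finset.sum_product, Finset.sum_singleton, root_child, act_act,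
    sum_range_mul_add]
  refine Finset.sum_congr rfl fun i _ => Finset.sum_congr rfl fun j _ => ?_
  congr 2
  ext <;> simp <;> ring

theorem P_mono : Monotone S.P :=
  monotone_nat_of_le_succ fun n => Nat.le_mul_of_pos_left _ (S.zoom_pos n)

theorem exists_factor {n : ℕ} {φ : S.Conf n → ZMod 2}
    (h : ∀ T T', S.cw n T = S.cw n T' → φ T = φ T') :
    ∃ ψ : Win (S.C n) → ZMod 2, φ = fun T => ψ (S.cw n T) :=
  (Function.factorsThrough_iff φ).1 fun T T' e => h T T' e

/-- Far above the radius, the sum over a tile, shifted by the radius, reads the window only. -/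
theorem boxSum_window (hH : S.Halo) {R k : ℕ} {u : S.Fun} (hu : S.Dep R u)
    (hk : 2 * R + 1 ≤ S.P k) :
    ∃ ψ : Win (S.C (k + 1)) → ZMod 2, S.boxSum (k + 1) (fun t => u (S.act 0 (-(R : ℤ), -(R : ℤ)) t)) =
      fun T => ψ (S.cw (k + 1) T) := by
  refine S.exists_factor fun T T' h => ?_
  refine Finset.sum_congr rfl fun a ha => Finset.sum_congr rfl fun b hb => hu _ _ fun p p1 p2 => ?_
  rw [Finset.mem_range] at ha hb
  rw [abs_le] at p1 p2
  simp only [act_apply]
  refine S.cells_eq_margin hH (S.pos_root _ T) (S.pos_root _ T') (by simpa [tile_root]) _ ?_ ?_ ?_ ?_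
  all_goals simp; omega

/-- Far above the radius, the sum over the bottom row of a tile reads the window only. -/
theorem rowSum_window (hH : S.Halo) (hC : S.Corner) {R k : ℕ} {u : S.Fun} (hu : S.Dep R u)
    (hk : 2 * R + 1 ≤ S.P k) :
    ∃ ψ : Win (S.C (k + 1)) → ZMod 2, S.rowSum (k + 1) u = fun T => ψ (S.cw (k + 1) T) := by
  refine S.exists_factor fun T T' h => ?_
  have hP : S.P k ≤ S.P (k + 1) := S.P_mono (Nat.le_succ k)
  refine Finset.sum_congr rfl fun a ha => hu _ _ fun p p1 p2 => ?_
  rw [Finset.mem_range] at ha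
  rw [abs_le] at p1 p2
  simp only [act_apply]
  by_cases hlt : p.1 + (a : ℤ) < S.P (k + 1)
  · refine S.cells_eq_margin hH (S.pos_root _ T) (S.pos_root _ T') (by simpa [tile_root]) _
      ?_ ?_ ?_ ?_
    all_goals simp; omega
  · obtain ⟨e, -⟩ := S.act_tiles (k + 1) (1, 0) _ (S.pos_root _ T)
    obtain ⟨e', -⟩ := S.act_tiles (k + 1) (1, 0) _ (S.pos_root _ T')
    have := S.cells_eq_corner hH hC e e' (p + ((a : ℤ), 0) - ((S.P (k + 1) : ℤ), 0))
      (by simp; omega) (by simp; omega) (by simp; omega) (by simp; omega)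
    simpa [act_apply] using this

/-- Far above the radius, the sum over the left column of a tile reads the window only. -/
theorem colSum_window (hH : S.Halo) (hC : S.Corner) {R k : ℕ} {u : S.Fun} (hu : S.Dep R u)
    (hk : 2 * R + 1 ≤ S.P k) :
    ∃ ψ : Win (S.C (k + 1)) → ZMod 2, S.colSum (k + 1) u = fun T => ψ (S.cw (k + 1) T) := by
  refine S.exists_factor fun T T' h => ?_
  have hP : S.P k ≤ S.P (k + 1) := S.P_mono (Nat.le_succ k)
  refine Finset.sum_congr rfl fun a ha => hu _ _ fun p p1 p2 => ?_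
  rw [Finset.mem_range] at ha
  rw [abs_le] at p1 p2
  simp only [act_apply]
  by_cases hlt : p.2 + (a : ℤ) < S.P (k + 1)
  · refine S.cells_eq_margin hH (S.pos_root _ T) (S.pos_root _ T') (by simpa [tile_root]) _
      ?_ ?_ ?_ ?_
    all_goals simp; omega
  · obtain ⟨e, -⟩ := S.act_tiles (k + 1) (0, 1) _ (S.pos_root _ T)
    obtain ⟨e', -⟩ := S.act_tiles (k + 1) (0, 1) _ (S.pos_root _ T')
    have := S.cells_eq_corner hH hC e e' (p + (0, (a : ℤ)) - (0, (S.P (k + 1) : ℤ)))
      (by simp; omega) (by simp; omega) (by simp; omega) (by simp; omega)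
    simpa [act_apply] using this

end MacroSystem

end Vale.Agent.P196.Sft
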