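import Vale.Agent.P196.Span.Sums

/-!
# P196: the mod-2 coinvariants are finite (`Span0`)
-/

namespace Vale.Agent.P196.Sft

namespace MacroSystem

variable (S : MacroSystem)

/-- The boundaries. -/
def bdd₀ : AddSubgroup S.Fun where
  carrier := {w | ∃ f g, IsLocallyConstant f ∧ IsLocallyConstant g ∧
    ∀ t, w t = S.dd (1, 0) f t + S.dd (0, 1) g t}
  zero_mem' := ⟨0, 0, IsLocallyConstant.const _, IsLocallyConstant.const _, fun t => by simp [dd]⟩
  add_mem' := by
    rintro w w' ⟨f, g, hf, hg, e⟩ ⟨f', g', hf', hg', e'⟩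
    exact ⟨f + f', g + g', hf.add hf', hg.add hg', fun t => by simp [dd, e, e']; ring⟩
  neg_mem' := by
    intro w h
    rwa [show -w = w from funext fun t => ZMod.neg_eq_self_mod_two (w t)]

/-- The class of a function in the coinvariants. -/
def cls₀ (u : S.Fun) : S.Fun ⧸ S.bdd₀ := QuotientAddGroup.mk u

theorem cls₀_eq_of {u v : S.Fun} {f g : S.Fun} (hf : IsLocallyConstant f) (hg : IsLocallyConstant g)
    (h : ∀ t, u t + v t = S.dd (1, 0) f t + S.dd (0, 1) g t) : S.cls₀ u = S.cls₀ v := by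
  refine QuotientAddGroup.eq.2 ⟨f, g, hf, hg, fun t => ?_⟩
  rw [← h, Pi.add_apply, Pi.neg_apply, ZMod.neg_eq_self_mod_two]

/-- A function of tiles, put at the last cell of each tile. -/
noncomputable def spread (m : ℕ) (φ : S.Conf m → ZMod 2) : S.Fun := fun t =>
  if S.qy m t = (S.P m : ℤ) - 1 ∧ S.qx m t = (S.P m : ℤ) - 1 then φ (S.tile m t) else 0

/-- A function moved along the tiles. -/
theorem cls₀_spread (m : ℕ) {u : S.Fun} (hu : IsLocallyConstant u) :
    S.cls₀ u = S.cls₀ (S.spread m (S.boxSum m u)) := by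
  set R : S.Fun := fun t => if S.qx m t = (S.P m : ℤ) - 1 then
    ∑ i ∈ Finset.range (S.P m), u (S.act 0 (((i : ℤ) - S.qx m t) • ((1, 0) : Cell)) t) else 0
  have e1 : ∀ t, u t + S.dd (1, 0) (S.partialSum (S.qx m) (1, 0) u) t = R t := fun t =>
    S.add_dd_partialSum (1, 0) u t (S.qx_bounds m t).1 (S.qx_bounds m t).2 (S.qx_act m _ t)
  have hR : IsLocallyConstant R := by
    rw [show R = _ from (funext e1).symm]
    exact hu.add (S.lc_dd (S.lc_partialSum (S.lc_qx m) _ hu) _)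
  have e2 : ∀ t, R t + S.dd (0, 1) (S.partialSum (S.qy m) (0, 1) R) t =
      S.spread m (S.boxSum m u) t := by
    intro t
    rw [S.add_dd_partialSum (0, 1) R t (S.qy_bounds m t).1 (S.qy_bounds m t).2 (S.qy_act m _ t)]
    by_cases hy : S.qy m t = (S.P m : ℤ) - 1
    · rw [if_pos hy]
      by_cases hx : S.qx m t = (S.P m : ℤ) - 1
      · simp only [spread, hy, hx, and_self, if_true, R, Prod.smul_mk, smul_eq_mul, mul_zero,
          mul_one, S.qx_act_vert, act_act, boxSum, ← org_eq_root, org]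
        rw [Finset.sum_comm]
        refine Finset.sum_congr rfl fun i _ => Finset.sum_congr rfl fun j _ => ?_
        congr 2
        ext <;> simp <;> ring
      · simp [spread, hx, R, qx_act_vert]
    · simp [spread, hy]
  refine S.cls₀_eq_of (S.lc_partialSum (S.lc_qx m) (1, 0) hu)
    (S.lc_partialSum (S.lc_qy m) (0, 1) hR) fun t => ?_
  rw [← e2, ← e1]
  generalize S.dd (1, 0) _ t = a
  generalize S.dd (0, 1) _ t = b
  generalize u t = x
  revert a b x
  decide

theorem cls₀_shift (R : ℕ) {u : S.Fun} (hu : IsLocallyConstant u) :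
    S.cls₀ u = S.cls₀ fun t => u (S.act 0 (-(R : ℤ), -(R : ℤ)) t) := by
  induction R with
  | zero => congr 1; funext t; exact congrArg u (S.act_zero 0 t).symm
  | succ R ih =>
    rw [ih]
    refine S.cls₀_eq_of (S.lc_act hu (-((R : ℤ) + 1), -(R : ℤ)))
      (S.lc_act hu (-((R : ℤ) + 1), -((R : ℤ) + 1))) fun t => ?_
    simp only [dd, act_act, Prod.mk_add_mk, add_zero]
    rw [show -((R : ℤ) + 1) + 1 = -(R : ℤ) by ring]
    push_cast
    generalize u (S.act 0 (-(R : ℤ), -(R : ℤ)) t) = a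
    generalize u (S.act 0 (-((R : ℤ) + 1), -((R : ℤ) + 1)) t) = b
    generalize u (S.act 0 (-((R : ℤ) + 1), -(R : ℤ)) t) = c
    revert a b c
    decide

/-- Functions that fit in the tiles of level `k`. -/
def Small₀ (k : ℕ) : Set (S.Fun ⧸ S.bdd₀) :=
  {c | ∃ R u, S.Dep R u ∧ 2 * R + 1 ≤ S.P k ∧ S.cls₀ u = c}

theorem small₀_mono : Monotone S.Small₀ := fun a b h c => by
  rintro ⟨R, u, hu, hR, hc⟩
  exact ⟨R, u, hu, hR.trans (S.P_mono h), hc⟩

variable {S} (K : S.Classes)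

attribute [local instance] Classes.finQ

theorem small₀_subset (hH : S.Halo) (k : ℕ) :
    S.Small₀ k ⊆ Set.range fun x : K.Param =>
      S.cls₀ (S.spread (k + 4) (K.model S.boxD (k + 1) x)) := by
  rintro c ⟨R, u, hu, hR, rfl⟩
  have lc := S.lc_of_dep hu
  set u' : S.Fun := fun t => u (S.act 0 (-(R : ℤ), -(R : ℤ)) t)
  obtain ⟨ψ, hψ⟩ := S.boxSum_window hH hu hR
  obtain ⟨x, hx⟩ := K.exists_param S.inBox_boxD (k + 1) ψ
  refine ⟨x, ?_⟩
  rw [S.cls₀_shift R lc, S.cls₀_spread (k + 4) (S.lc_act lc _)]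
  simp only [boxSum_succ] at *
  rw [hψ, hx]

/-- A monotone sequence of sets, each the image of one finite type, is eventually constant. -/
theorem exists_eq_iUnion {α β : Type*} [Finite β] {A : ℕ → Set α} (hA : Monotone A)
    (f : ℕ → β → α) (h : ∀ k, A k ⊆ Set.range (f k)) : ∃ n, ∀ k, A k ⊆ A n := by
  classical
  have fin : ∀ k, (A k).Finite := fun k => (Set.finite_range (f k)).subset (h k)
  have hb : BddAbove (Set.range fun k => (A k).ncard) := ⟨Nat.card β, by
    rintro _ ⟨k, rfl⟩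
    refine (Set.ncard_le_ncard (h k) (Set.finite_range _)).trans ?_
    rw [← Nat.card_coe_set_eq]
    exact Finite.card_range_le _⟩
  obtain ⟨n, hn⟩ := Nat.sSup_mem (Set.range_nonempty _) hb
  refine ⟨n, fun k => ?_⟩
  rcases le_total k n with hk | hk
  · exact hA hk
  · refine (Set.eq_of_subset_of_ncard_le (hA hk) ?_ (fin k)).symm.subset
    simp only at hn
    rw [hn]
    exact le_csSup hb ⟨k, rfl⟩

variable (S) in
/-- Functions of bounded radius on tilings extend to all colourings. -/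
theorem exists_extension {R : ℕ} {u : S.Fun} (hu : S.Dep R u) :
    ∃ F : (Cell → S.C 0) → ZMod 2, S.Radius R F ∧ ∀ t : S.Conf 0, F t.1 = u t := by
  classical
  refine ⟨fun a => if ∃ s : S.Conf 0, u s = 1 ∧ ∀ p : Cell, |p.1| ≤ (R : ℤ) → |p.2| ≤ (R : ℤ) →
    s.1 p = a p then 1 else 0, fun a a' h => ?_, fun t => ?_⟩
  · refine if_congr ⟨?_, ?_⟩ rfl rfl
    · rintro ⟨s, hs, he⟩; exact ⟨s, hs, fun p p1 p2 => (he p p1 p2).trans (h p p1 p2)⟩
    · rintro ⟨s, hs, he⟩; exact ⟨s, hs, fun p p1 p2 => (he p p1 p2).trans (h p p1 p2).symm⟩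
  · have two : ∀ a : ZMod 2, a = 0 ∨ a = 1 := by decide
    simp only
    rcases two (u t) with h | h
    · rw [if_neg, h]
      rintro ⟨s, hs, he⟩
      rw [hu s t he, h] at hs
      exact absurd hs (by decide)
    · rw [if_pos ⟨t, h, fun _ _ _ => rfl⟩, h]

variable (S) in
theorem dep_of_radius {R : ℕ} {F : (Cell → S.C 0) → ZMod 2} (h : S.Radius R F) :
    S.Dep R fun t => F t.1 := fun t t' e => h t.1 t'.1 e

variable (S) in
theorem dd_eq_bd {F : (Cell → S.C 0) → ZMod 2} {f : S.Fun} (h : ∀ t : S.Conf 0, F t.1 = f t)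
    (d : Cell) (t : S.Conf 0) : S.bd d F t.1 = S.dd d f t := by
  rw [bd, h, show shiftBy d t.1 = (S.act 0 d t).1 from rfl, h]
  rfl

/-- E5: the coinvariants are spanned in bounded radius. -/
theorem span0_of_classes (hH : S.Halo) (K : S.Classes) : S.Span0 := by
  classical
  obtain ⟨n, hn⟩ := exists_eq_iUnion S.small₀_mono _ fun k => small₀_subset K hH k
  have hfin : (S.Small₀ n).Finite := (Set.finite_range _).subset (small₀_subset K hH n)
  have hrep : ∀ c : S.Fun ⧸ S.bdd₀, c ∈ S.Small₀ n → ∃ R v, S.Dep R v ∧ S.cls₀ v = c :=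
    fun c ⟨R, v, hv, _, hc⟩ => ⟨R, v, hv, hc⟩
  choose! R v hv hcls using hrep
  refine ⟨hfin.toFinset.sup R, fun R₀ U hU => ?_⟩
  have hu := S.dep_of_radius hU
  have hmem : S.cls₀ (fun t => U t.1) ∈ S.Small₀ n :=
    hn (2 * R₀ + 1) ⟨R₀, _, hu, S.le_P _, rfl⟩
  set c := S.cls₀ (fun t => U t.1) with hc
  have hle : R c ≤ hfin.toFinset.sup R := Finset.le_sup (hfin.mem_toFinset.2 hmem)
  obtain ⟨f, g, hf, hg, e⟩ := QuotientAddGroup.eq.1 (hcls c hmem)
  obtain ⟨rf, hrf⟩ := S.exists_radius f hf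
  obtain ⟨rg, hrg⟩ := S.exists_radius g hg
  have up : ∀ {α : Type} {a b : ℕ} {w : S.Conf 0 → α}, a ≤ b → S.Dep a w → S.Dep b w :=
    fun hab hw t t' h => hw t t' fun p p1 p2 => h p (p1.trans (by exact_mod_cast hab))
      (p2.trans (by exact_mod_cast hab))
  obtain ⟨V, hV, eV⟩ := S.exists_extension (up hle (hv c hmem))
  obtain ⟨F, hF, eF⟩ := S.exists_extension (up (le_max_left rf rg) hrf)
  obtain ⟨G, hG, eG⟩ := S.exists_extension (up (le_max_right rf rg) hrg)
  refine ⟨V, F, G, _, hV, hF, hG, fun t ht => ?_⟩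
  have et := e ⟨t, ht⟩
  rw [Pi.add_apply, Pi.neg_apply, ZMod.neg_eq_self_mod_two] at et
  rw [show V t = v c ⟨t, ht⟩ from eV ⟨t, ht⟩, S.dd_eq_bd eF _ ⟨t, ht⟩, S.dd_eq_bd eG _ ⟨t, ht⟩,
    add_assoc, ← et, ← add_assoc, CharTwo.add_self_eq_zero, zero_add]

end MacroSystem

end Vale.Agent.P196.Sft
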